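import Mathlib

/-!
Row E7: the covariance of integer heights under added positive semidefinite masses.
Everything is stated for an abstract nonnegative weight `ρ` on `V → ℤ` with all exponential
moments and the four copy inequality `four` (the Ginibre inequality of row GIN).

* `tilt_var`  : a real tilt does not lower the variance;
* `e7_one`    : `m2 (ρ e^{-⟨v,h⟩²/2}) u ≤ m2 ρ (u - c v) + c²` for every real `c`;
* `e7_form`   : the same for finitely many masses;
* `e7_leg`    : the Legendre form (`Π` does not increase when masses are removed);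
* `e7_scalar` : the one vector form `1/g₁ ≥ 1/g₀ + δ` for a mass `δ` times the identity.
-/

namespace Vale.Agent.P159.TM.H416

open MeasureTheory Real Finset
open scoped ENNReal

variable {V : Type*} [Fintype V]

/-- Pairing of a real vector with an integer height. -/
noncomputable def pr (u : V → ℝ) (h : V → ℤ) : ℝ := ∑ x, u x * (h x : ℝ)

/-- Laplace transform of the weight. -/
noncomputable def Zl (ρ : (V → ℤ) → ℝ) (t : V → ℝ) : ℝ := ∑' h, ρ h * Real.exp (pr t h)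

/-- Normalised second moment of `⟨u,h⟩`. -/
noncomputable def m2 (ρ : (V → ℤ) → ℝ) (u : V → ℝ) : ℝ :=
  (∑' h, ρ h * pr u h ^ 2) / ∑' h, ρ h

/-- The weight with the masses `v i`, `i ∈ S`, added. -/
noncomputable def addm {ι : Type*} (ρ : (V → ℤ) → ℝ) (v : ι → V → ℝ) (S : Finset ι) :
    (V → ℤ) → ℝ :=
  fun h => ρ h * Real.exp (-(1 / 2) * ∑ i ∈ S, pr (v i) h ^ 2)

/-- A nonnegative weight with all exponential moments and the four copy inequality. -/
structure Wt (ρ : (V → ℤ) → ℝ) : Prop where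
  nonneg : ∀ h, 0 ≤ ρ h
  summ : ∀ t : V → ℝ, Summable fun h => ρ h * Real.exp (pr t h)
  pos : 0 < ∑' h, ρ h
  four : ∀ t u : V → ℝ, (Zl ρ t * Zl ρ u) ^ 2 ≤ Zl ρ (t + u) * Zl ρ (t - u) * Zl ρ 0 ^ 2

lemma pr_zero (h : V → ℤ) : pr (0 : V → ℝ) h = 0 := by simp [pr]

lemma pr_add (u v : V → ℝ) (h : V → ℤ) : pr (u + v) h = pr u h + pr v h := by
  simp [pr, add_mul, Finset.sum_add_distrib]

lemma pr_sub (u v : V → ℝ) (h : V → ℤ) : pr (u - v) h = pr u h - pr v h := by
  simp [pr, sub_mul, Finset.sum_sub_distrib]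

lemma pr_smul (c : ℝ) (v : V → ℝ) (h : V → ℤ) : pr (c • v) h = c * pr v h := by
  simp [pr, Finset.mul_sum, mul_assoc]

lemma Zl_zero (ρ : (V → ℤ) → ℝ) : Zl ρ 0 = ∑' h, ρ h := by
  simp [Zl, pr_zero]

/-- `cosh (s x) ≤ 1 + s² x²/2 + s⁴ cosh x` for `|s| ≤ 1`. -/
lemma cosh_le {s : ℝ} (x : ℝ) (hs : |s| ≤ 1) :
    Real.cosh (s * x) ≤ 1 + s ^ 2 * x ^ 2 / 2 + s ^ 4 * Real.cosh x := by
  have h1 := Real.hasSum_cosh (s * x)
  have h2 := (Real.hasSum_cosh x).mul_left (s ^ 4)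
  have h3 : HasSum (fun n : ℕ => (if n = 0 then (1 : ℝ) else 0)
      + (if n = 1 then s ^ 2 * x ^ 2 / 2 else 0))
      (1 + s ^ 2 * x ^ 2 / 2) := (hasSum_ite_eq 0 1).add (hasSum_ite_eq 1 _)
  have h4 := h3.add h2
  refine hasSum_le (fun n => ?_) h1 h4
  have hs2 : s ^ 2 ≤ 1 := by
    rw [← sq_abs]; exact pow_le_one₀ (abs_nonneg s) hs
  have hx : 0 ≤ s ^ 4 * (x ^ (2 * n) / ((2 * n).factorial : ℝ)) := by
    have : 0 ≤ x ^ (2 * n) := by rw [pow_mul]; positivity
    positivity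
  rcases Nat.lt_or_ge n 2 with hn | hn
  · interval_cases n
    · simp at hx ⊢; nlinarith [hx]
    · simp at hx ⊢; nlinarith [hx]
  · have hn0 : n ≠ 0 := by omega
    have hn1 : n ≠ 1 := by omega
    simp only [hn0, hn1, if_false, zero_add]
    rw [mul_pow, mul_div_assoc]
    have h5 : s ^ (2 * n) ≤ s ^ 4 := by
      obtain ⟨m, rfl⟩ := Nat.exists_eq_add_of_le hn
      have : s ^ (2 * (2 + m)) = s ^ 4 * (s ^ 2) ^ m := by ring
      rw [this]
      exact mul_le_of_le_one_right (by positivity) (pow_le_one₀ (by positivity) hs2)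
    have h6 : 0 ≤ x ^ (2 * n) / ((2 * n).factorial : ℝ) := by
      have : 0 ≤ x ^ (2 * n) := by rw [pow_mul]; positivity
      positivity
    exact mul_le_mul_of_nonneg_right h5 h6

lemma one_add_le_cosh (x : ℝ) : 1 + x ^ 2 / 2 ≤ Real.cosh x := by
  have h1 := Real.hasSum_cosh x
  have h3 : HasSum (fun n : ℕ => (if n = 0 then (1 : ℝ) else 0)
      + (if n = 1 then x ^ 2 / 2 else 0))
      (1 + x ^ 2 / 2) := (hasSum_ite_eq 0 1).add (hasSum_ite_eq 1 _)
  refine hasSum_le (fun n => ?_) h3 h1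
  have hx : 0 ≤ x ^ (2 * n) / ((2 * n).factorial : ℝ) := by
    have : 0 ≤ x ^ (2 * n) := by rw [pow_mul]; positivity
    positivity
  rcases Nat.lt_or_ge n 2 with hn | hn
  · interval_cases n <;> simp
  · have hn0 : n ≠ 0 := by omega
    have hn1 : n ≠ 1 := by omega
    simpa [hn0, hn1] using hx

namespace Wt

variable {ρ : (V → ℤ) → ℝ}

lemma Zl_pos (hρ : Wt ρ) (t : V → ℝ) : 0 < Zl ρ t := by
  obtain ⟨h, hh⟩ : ∃ h, ρ h ≠ 0 := by
    by_contra hc
    push Not at hc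
    have := hρ.pos
    simp [hc] at this
  have h0 : 0 < ρ h := lt_of_le_of_ne (hρ.nonneg h) (Ne.symm hh)
  exact (hρ.summ t).tsum_pos (fun g => mul_nonneg (hρ.nonneg g) (Real.exp_pos _).le) h
    (mul_pos h0 (Real.exp_pos _))

lemma Zl_neg (hρ : Wt ρ) (u : V → ℝ) : Zl ρ (-u) = Zl ρ u := by
  have key : ∀ w : V → ℝ, Zl ρ w ≤ Zl ρ (-w) := by
    intro w
    have h := hρ.four 0 w
    simp only [zero_add, zero_sub] at h
    have h0 := hρ.Zl_pos 0
    have h1 := hρ.Zl_pos w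
    have h2 : Zl ρ w * (Zl ρ w * Zl ρ 0 ^ 2) ≤ Zl ρ (-w) * (Zl ρ w * Zl ρ 0 ^ 2) := by
      nlinarith [h]
    exact le_of_mul_le_mul_right h2 (by positivity)
  refine le_antisymm ?_ (key u)
  have := key (-u)
  simpa using this

lemma cosh_eq (ρ : (V → ℤ) → ℝ) (t u : V → ℝ) (s a : ℝ) (h : V → ℤ) :
    ρ h * Real.exp (pr t h) * Real.cosh (s * (pr u h - a))
      = Real.exp (-(s * a)) / 2 * (ρ h * Real.exp (pr (t + s • u) h))
        + Real.exp (s * a) / 2 * (ρ h * Real.exp (pr (t - s • u) h)) := by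
  rw [Real.cosh_eq, pr_add, pr_sub, pr_smul]
  have e1 : Real.exp (s * (pr u h - a)) = Real.exp (-(s * a)) * Real.exp (s * pr u h) := by
    rw [← Real.exp_add]; ring_nf
  have e2 : Real.exp (-(s * (pr u h - a))) = Real.exp (s * a) * Real.exp (-(s * pr u h)) := by
    rw [← Real.exp_add]; ring_nf
  have e3 : Real.exp (pr t h + s * pr u h) = Real.exp (pr t h) * Real.exp (s * pr u h) :=
    Real.exp_add _ _
  have e4 : Real.exp (pr t h - s * pr u h) = Real.exp (pr t h) * Real.exp (-(s * pr u h)) := by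
    rw [sub_eq_add_neg]; exact Real.exp_add _ _
  rw [e1, e2, e3, e4]; ring

lemma summ_cosh (hρ : Wt ρ) (t u : V → ℝ) (s a : ℝ) :
    Summable fun h => ρ h * Real.exp (pr t h) * Real.cosh (s * (pr u h - a)) := by
  have := ((hρ.summ (t + s • u)).mul_left (Real.exp (-(s * a)) / 2)).add
    ((hρ.summ (t - s • u)).mul_left (Real.exp (s * a) / 2))
  exact this.congr (fun h => (cosh_eq ρ t u s a h).symm)

lemma tsum_cosh (hρ : Wt ρ) (t u : V → ℝ) (s a : ℝ) :
    ∑' h, ρ h * Real.exp (pr t h) * Real.cosh (s * (pr u h - a))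
      = Real.exp (-(s * a)) / 2 * Zl ρ (t + s • u) + Real.exp (s * a) / 2 * Zl ρ (t - s • u) := by
  rw [Zl, Zl, ← tsum_mul_left, ← tsum_mul_left,
    ← ((hρ.summ (t + s • u)).mul_left _).tsum_add ((hρ.summ (t - s • u)).mul_left _)]
  exact tsum_congr (fun h => cosh_eq ρ t u s a h)

lemma summ_sq (hρ : Wt ρ) (t u : V → ℝ) (a : ℝ) :
    Summable fun h => ρ h * Real.exp (pr t h) * (pr u h - a) ^ 2 := by
  refine Summable.of_nonneg_of_le
    (fun h => mul_nonneg (mul_nonneg (hρ.nonneg h) (Real.exp_pos _).le) (sq_nonneg _))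
    (fun h => ?_) ((hρ.summ_cosh t u 1 a).mul_left 2)
  have h1 := one_add_le_cosh (1 * (pr u h - a))
  have h2 : 0 ≤ ρ h * Real.exp (pr t h) := mul_nonneg (hρ.nonneg h) (Real.exp_pos _).le
  have h3 : (pr u h - a) ^ 2 ≤ 2 * Real.cosh (1 * (pr u h - a)) := by
    nlinarith [h1]
  calc ρ h * Real.exp (pr t h) * (pr u h - a) ^ 2
      ≤ ρ h * Real.exp (pr t h) * (2 * Real.cosh (1 * (pr u h - a))) :=
        mul_le_mul_of_nonneg_left h3 h2
    _ = 2 * (ρ h * Real.exp (pr t h) * Real.cosh (1 * (pr u h - a))) := by ring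

lemma summ0 (hρ : Wt ρ) : Summable ρ := by
  have := hρ.summ 0
  simpa [pr_zero] using this

lemma summ_sq0 (hρ : Wt ρ) (u : V → ℝ) : Summable fun h => ρ h * pr u h ^ 2 := by
  have := hρ.summ_sq 0 u 0
  simpa [pr_zero] using this

lemma m2_nonneg (hρ : Wt ρ) (u : V → ℝ) : 0 ≤ m2 ρ u :=
  div_nonneg (tsum_nonneg fun h => mul_nonneg (hρ.nonneg h) (sq_nonneg _)) hρ.pos.le

/-- `Z(s u) ≥ Z(0) (1 + s² m2/2)`. -/
lemma Zl_lower (hρ : Wt ρ) (u : V → ℝ) (s : ℝ) :
    Zl ρ 0 * (1 + s ^ 2 / 2 * m2 ρ u) ≤ Zl ρ (s • u) := by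
  have h1 := hρ.tsum_cosh 0 u s 0
  have h2 : Zl ρ ((0 : V → ℝ) - s • u) = Zl ρ (s • u) := by
    rw [zero_sub]; exact hρ.Zl_neg _
  rw [h2, zero_add] at h1
  simp only [mul_zero, neg_zero, Real.exp_zero, sub_zero, pr_zero, mul_one] at h1
  have h3 : ∑' h, ρ h * Real.cosh (s * pr u h) = Zl ρ (s • u) := by rw [h1]; ring
  rw [← h3]
  have h4 : Zl ρ 0 * (1 + s ^ 2 / 2 * m2 ρ u)
      = ∑' h, (ρ h + s ^ 2 / 2 * (ρ h * pr u h ^ 2)) := by
    rw [(hρ.summ0).tsum_add ((hρ.summ_sq0 u).mul_left _), tsum_mul_left, Zl_zero, m2]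
    have := hρ.pos.ne'
    field_simp
  rw [h4]
  have h5 : Summable fun h => ρ h * Real.cosh (s * pr u h) := by
    have := hρ.summ_cosh 0 u s 0
    simpa [pr_zero] using this
  refine ((hρ.summ0).add ((hρ.summ_sq0 u).mul_left _)).tsum_le_tsum (fun h => ?_) h5
  have h6 := one_add_le_cosh (s * pr u h)
  have h7 := mul_le_mul_of_nonneg_left h6 (hρ.nonneg h)
  calc ρ h + s ^ 2 / 2 * (ρ h * pr u h ^ 2) = ρ h * (1 + (s * pr u h) ^ 2 / 2) := by ring
    _ ≤ _ := h7

/-- **A real tilt does not lower the variance.** -/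
theorem tilt_var (hρ : Wt ρ) (t u : V → ℝ) (a : ℝ) :
    m2 ρ u * Zl ρ t ≤ ∑' h, ρ h * Real.exp (pr t h) * (pr u h - a) ^ 2 := by
  set T := ∑' h, ρ h * Real.exp (pr t h) * (pr u h - a) ^ 2 with hT
  set B := ∑' h, ρ h * Real.exp (pr t h) * Real.cosh (1 * (pr u h - a)) with hB
  have hZt := hρ.Zl_pos t
  have hZ0 := hρ.Zl_pos 0
  have key : ∀ s : ℝ, 0 < s → s ≤ 1 → m2 ρ u * Zl ρ t ≤ T + 2 * s ^ 2 * B := by
    intro s hs0 hs1
    set A := ∑' h, ρ h * Real.exp (pr t h) * Real.cosh (s * (pr u h - a)) with hA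
    -- upper bound for A
    have hup : A ≤ Zl ρ t + s ^ 2 / 2 * T + s ^ 4 * B := by
      have e : Zl ρ t + s ^ 2 / 2 * T + s ^ 4 * B
          = ∑' h, (ρ h * Real.exp (pr t h)
            + s ^ 2 / 2 * (ρ h * Real.exp (pr t h) * (pr u h - a) ^ 2)
            + s ^ 4 * (ρ h * Real.exp (pr t h) * Real.cosh (1 * (pr u h - a)))) := by
        rw [((hρ.summ t).add ((hρ.summ_sq t u a).mul_left _)).tsum_add
          ((hρ.summ_cosh t u 1 a).mul_left _),
          (hρ.summ t).tsum_add ((hρ.summ_sq t u a).mul_left _), tsum_mul_left, tsum_mul_left]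
        rfl
      rw [e]
      refine (hρ.summ_cosh t u s a).tsum_le_tsum (fun h => ?_)
        (((hρ.summ t).add ((hρ.summ_sq t u a).mul_left _)).add
          ((hρ.summ_cosh t u 1 a).mul_left _))
      have h1 := cosh_le (s := s) (pr u h - a) (by rw [abs_of_pos hs0]; exact hs1)
      have h2 : 0 ≤ ρ h * Real.exp (pr t h) := mul_nonneg (hρ.nonneg h) (Real.exp_pos _).le
      have h3 := mul_le_mul_of_nonneg_left h1 h2
      rw [one_mul]
      calc _ ≤ _ := h3
        _ = _ := by ring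
    -- lower bound for A
    have hlow : Zl ρ t * (1 + s ^ 2 / 2 * m2 ρ u) ≤ A := by
      have hA2 : A = Real.exp (-(s * a)) / 2 * Zl ρ (t + s • u)
          + Real.exp (s * a) / 2 * Zl ρ (t - s • u) := hρ.tsum_cosh t u s a
      have hp1 := hρ.Zl_pos (t + s • u)
      have hp2 := hρ.Zl_pos (t - s • u)
      have hexp : Real.exp (-(s * a)) * Real.exp (s * a) = 1 := by
        rw [← Real.exp_add]; simp
      have hAsq : Zl ρ (t + s • u) * Zl ρ (t - s • u) ≤ A ^ 2 := by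
        have hq : A ^ 2 - Zl ρ (t + s • u) * Zl ρ (t - s • u)
            = (Real.exp (-(s * a)) / 2 * Zl ρ (t + s • u)
              - Real.exp (s * a) / 2 * Zl ρ (t - s • u)) ^ 2
              + (Real.exp (-(s * a)) * Real.exp (s * a) - 1)
                * (Zl ρ (t + s • u) * Zl ρ (t - s • u)) := by
          rw [hA2]; ring
        have : 0 ≤ A ^ 2 - Zl ρ (t + s • u) * Zl ρ (t - s • u) := by
          rw [hq, hexp]; simp only [sub_self, zero_mul, add_zero]; positivity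
        linarith
      have h4 := hρ.four t (s • u)
      have hA0 : 0 ≤ A := by rw [hA2]; positivity
      have h5 : (Zl ρ t * Zl ρ (s • u)) ^ 2 ≤ (A * Zl ρ 0) ^ 2 := by
        calc (Zl ρ t * Zl ρ (s • u)) ^ 2 ≤ Zl ρ (t + s • u) * Zl ρ (t - s • u) * Zl ρ 0 ^ 2 := h4
          _ ≤ A ^ 2 * Zl ρ 0 ^ 2 := mul_le_mul_of_nonneg_right hAsq (by positivity)
          _ = _ := by ring
      have h6 : Zl ρ t * Zl ρ (s • u) ≤ A * Zl ρ 0 :=
        (sq_le_sq₀ (mul_nonneg hZt.le (hρ.Zl_pos _).le) (mul_nonneg hA0 hZ0.le)).mp h5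
      have h7 := mul_le_mul_of_nonneg_left (hρ.Zl_lower u s) hZt.le
      have h8 : (Zl ρ t * (1 + s ^ 2 / 2 * m2 ρ u)) * Zl ρ 0 ≤ A * Zl ρ 0 := by
        calc _ = Zl ρ t * (Zl ρ 0 * (1 + s ^ 2 / 2 * m2 ρ u)) := by ring
          _ ≤ Zl ρ t * Zl ρ (s • u) := h7
          _ ≤ _ := h6
      exact le_of_mul_le_mul_right h8 hZ0
    have h9 : s ^ 2 / 2 * (m2 ρ u * Zl ρ t) ≤ s ^ 2 / 2 * (T + 2 * s ^ 2 * B) := by
      nlinarith [hup, hlow]
    exact le_of_mul_le_mul_left h9 (by positivity)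
  have hB0 : 0 ≤ B := tsum_nonneg fun h =>
    mul_nonneg (mul_nonneg (hρ.nonneg h) (Real.exp_pos _).le) (Real.cosh_pos _).le
  refine le_of_forall_pos_le_add (fun e he => ?_)
  set s := min 1 (e / (2 * B + 1)) with hs
  have hs0 : 0 < s := lt_min one_pos (by positivity)
  have hs1 : s ≤ 1 := min_le_left _ _
  have hs2 : s ≤ e / (2 * B + 1) := min_le_right _ _
  have h1 := key s hs0 hs1
  have h2 : 2 * s ^ 2 * B ≤ e := by
    have h3 : s * (2 * B + 1) ≤ e := by
      rwa [le_div_iff₀ (by positivity)] at hs2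
    nlinarith [mul_nonneg hs0.le hB0]
  linarith

end Wt

/-! ### Gaussian averages -/

lemma gauss_sq (x y c : ℝ) :
    ∫⁻ s, ENNReal.ofReal ((x - c * s) ^ 2) ∂(ProbabilityTheory.gaussianReal y 1)
      = ENNReal.ofReal ((x - c * y) ^ 2 + c ^ 2) := by
  have hm : MemLp (id : ℝ → ℝ) 2 (ProbabilityTheory.gaussianReal y 1) :=
    ProbabilityTheory.memLp_id_gaussianReal 2
  have hi : Integrable (fun s : ℝ => s) (ProbabilityTheory.gaussianReal y 1) :=
    hm.integrable (by norm_num)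
  have hi2 : Integrable (fun s : ℝ => s ^ 2) (ProbabilityTheory.gaussianReal y 1) := by
    simpa using hm.integrable_sq
  have h1 : ∫ s, s ∂(ProbabilityTheory.gaussianReal y 1) = y :=
    ProbabilityTheory.integral_id_gaussianReal
  have h2 : ∫ s, s ^ 2 ∂(ProbabilityTheory.gaussianReal y 1) = y ^ 2 + 1 := by
    have hv := ProbabilityTheory.variance_id_gaussianReal (μ := y) (v := 1)
    rw [ProbabilityTheory.variance_eq_sub hm] at hv
    simp only [Pi.pow_apply, id_eq, NNReal.coe_one] at hv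
    rw [h1] at hv
    linarith
  have hint : Integrable (fun s : ℝ => (x - c * s) ^ 2) (ProbabilityTheory.gaussianReal y 1) := by
    have : (fun s : ℝ => (x - c * s) ^ 2) = fun s => x ^ 2 + (-(2 * x * c)) * s + c ^ 2 * s ^ 2 := by
      funext s; ring
    rw [this]
    exact ((integrable_const _).add (hi.const_mul _)).add (hi2.const_mul _)
  rw [← ofReal_integral_eq_lintegral_ofReal hint (Filter.Eventually.of_forall
    (fun s => sq_nonneg _))]
  congr 1
  have : (fun s : ℝ => (x - c * s) ^ 2) = fun s => (x ^ 2 + (-(2 * x * c)) * s) + c ^ 2 * s ^ 2 := by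
    funext s; ring
  have hA : Integrable (fun s : ℝ => x ^ 2 + (-(2 * x * c)) * s)
      (ProbabilityTheory.gaussianReal y 1) := (integrable_const _).add (hi.const_mul _)
  rw [this, integral_add hA (hi2.const_mul _),
    integral_add (integrable_const _) (hi.const_mul _), integral_const_mul, integral_const_mul,
    h1, h2]
  simp
  ring

lemma pdf_shift (y s : ℝ) :
    ProbabilityTheory.gaussianPDFReal y 1 s
      = ProbabilityTheory.gaussianPDFReal 0 1 s * Real.exp (s * y - y ^ 2 / 2) := by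
  simp only [ProbabilityTheory.gaussianPDFReal, NNReal.coe_one, mul_one, sub_zero]
  rw [mul_assoc, ← Real.exp_add]
  congr 2
  ring

lemma lint_gauss (y : ℝ) (f : ℝ → ℝ≥0∞) (hf : Measurable f) :
    ∫⁻ s, f s ∂(ProbabilityTheory.gaussianReal y 1)
      = ∫⁻ s, ProbabilityTheory.gaussianPDF y 1 s * f s := by
  rw [ProbabilityTheory.gaussianReal_of_var_ne_zero y (by norm_num),
    lintegral_withDensity_eq_lintegral_mul _ (ProbabilityTheory.measurable_gaussianPDF y 1) hf]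
  rfl

/-- **One mass.** -/
theorem e7_one {ρ : (V → ℤ) → ℝ} (hρ : Wt ρ) (v : V → ℝ)
    (h1 : Wt (fun h => ρ h * Real.exp (-(1 / 2) * pr v h ^ 2))) (u : V → ℝ) (c : ℝ) :
    m2 (fun h => ρ h * Real.exp (-(1 / 2) * pr v h ^ 2)) u ≤ m2 ρ (u - c • v) + c ^ 2 := by
  set ρ1 : (V → ℤ) → ℝ := fun h => ρ h * Real.exp (-(1 / 2) * pr v h ^ 2) with hρ1
  set φ : ℝ → ℝ≥0∞ := ProbabilityTheory.gaussianPDF 0 1 with hφ
  have hφm : Measurable φ := ProbabilityTheory.measurable_gaussianPDF 0 1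
  -- pointwise identity of the weights
  have hw : ∀ (h : V → ℤ) (s : ℝ),
      ENNReal.ofReal (ρ h) * ProbabilityTheory.gaussianPDF (pr v h) 1 s
        = φ s * ENNReal.ofReal (ρ1 h * Real.exp (pr (s • v) h)) := by
    intro h s
    simp only [hφ, ProbabilityTheory.gaussianPDF]
    rw [← ENNReal.ofReal_mul (hρ.nonneg h),
      ← ENNReal.ofReal_mul (ProbabilityTheory.gaussianPDFReal_nonneg 0 1 s), pdf_shift]
    congr 1
    simp only [hρ1, pr_smul]
    have : Real.exp (s * pr v h - pr v h ^ 2 / 2)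
        = Real.exp (-(1 / 2) * pr v h ^ 2) * Real.exp (s * pr v h) := by
      rw [← Real.exp_add]; congr 1; ring
    rw [this]; ring
  -- left side
  have hL : ∑' h, ENNReal.ofReal (ρ h) * ENNReal.ofReal ((pr u h - c * pr v h) ^ 2 + c ^ 2)
      = ENNReal.ofReal (Zl ρ 0 * (m2 ρ (u - c • v) + c ^ 2)) := by
    have e1 : ∀ h, ENNReal.ofReal (ρ h) * ENNReal.ofReal ((pr u h - c * pr v h) ^ 2 + c ^ 2)
        = ENNReal.ofReal (ρ h * pr (u - c • v) h ^ 2 + c ^ 2 * ρ h) := by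
      intro h
      rw [← ENNReal.ofReal_mul (hρ.nonneg h), pr_sub, pr_smul]
      congr 1; ring
    have hs := (hρ.summ_sq0 (u - c • v)).add ((hρ.summ0).mul_left (c ^ 2))
    rw [tsum_congr e1, ← ENNReal.ofReal_tsum_of_nonneg (fun h => ?_) hs,
      (hρ.summ_sq0 (u - c • v)).tsum_add ((hρ.summ0).mul_left (c ^ 2)), tsum_mul_left,
      Zl_zero, m2]
    · congr 1
      have := hρ.pos.ne'
      field_simp
    · exact add_nonneg (mul_nonneg (hρ.nonneg h) (sq_nonneg _))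
        (mul_nonneg (sq_nonneg _) (hρ.nonneg h))
  have hmeas : ∀ h : V → ℤ, Measurable fun s : ℝ => ENNReal.ofReal ((pr u h - c * s) ^ 2) :=
    fun h => by fun_prop
  have hpm : ∀ h : V → ℤ, Measurable fun s : ℝ =>
      ProbabilityTheory.gaussianPDF (pr v h) 1 s * ENNReal.ofReal ((pr u h - c * s) ^ 2) :=
    fun h => (ProbabilityTheory.measurable_gaussianPDF _ 1).mul (hmeas h)
  have hM : ∑' h, ENNReal.ofReal (ρ h) * ENNReal.ofReal ((pr u h - c * pr v h) ^ 2 + c ^ 2)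
      = ∫⁻ s, φ s * ∑' h, ENNReal.ofReal (ρ1 h * Real.exp (pr (s • v) h) * (pr u h - c * s) ^ 2) := by
    have e2 : ∀ s, φ s * ∑' h, ENNReal.ofReal
        (ρ1 h * Real.exp (pr (s • v) h) * (pr u h - c * s) ^ 2)
        = ∑' h, ENNReal.ofReal (ρ h) * (ProbabilityTheory.gaussianPDF (pr v h) 1 s
          * ENNReal.ofReal ((pr u h - c * s) ^ 2)) := by
      intro s
      rw [← ENNReal.tsum_mul_left]
      refine tsum_congr (fun h => ?_)
      calc φ s * ENNReal.ofReal (ρ1 h * Real.exp (pr (s • v) h) * (pr u h - c * s) ^ 2)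
          = φ s * (ENNReal.ofReal (ρ1 h * Real.exp (pr (s • v) h))
            * ENNReal.ofReal ((pr u h - c * s) ^ 2)) := by
            rw [← ENNReal.ofReal_mul (mul_nonneg (h1.nonneg h) (Real.exp_pos _).le)]
        _ = (φ s * ENNReal.ofReal (ρ1 h * Real.exp (pr (s • v) h)))
            * ENNReal.ofReal ((pr u h - c * s) ^ 2) := (mul_assoc _ _ _).symm
        _ = _ := by rw [← hw h s, mul_assoc]
    simp_rw [e2]
    rw [lintegral_tsum (fun h => ?_)]
    · refine tsum_congr (fun h => ?_)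
      rw [lintegral_const_mul _ (hpm h), ← lint_gauss _ _ (hmeas h), gauss_sq]
    · exact ((hpm h).const_mul _).aemeasurable
  have hR : ∑' h, ENNReal.ofReal (ρ h)
      = ∫⁻ s, φ s * ∑' h, ENNReal.ofReal (ρ1 h * Real.exp (pr (s • v) h)) := by
    have e2 : ∀ s, φ s * ∑' h, ENNReal.ofReal (ρ1 h * Real.exp (pr (s • v) h))
        = ∑' h, ENNReal.ofReal (ρ h) * ProbabilityTheory.gaussianPDF (pr v h) 1 s := by
      intro s
      rw [← ENNReal.tsum_mul_left]
      exact tsum_congr (fun h => (hw h s).symm)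
    simp_rw [e2]
    rw [lintegral_tsum (fun h => ((ProbabilityTheory.measurable_gaussianPDF _ 1).const_mul
      _).aemeasurable)]
    refine tsum_congr (fun h => ?_)
    rw [lintegral_const_mul _ (ProbabilityTheory.measurable_gaussianPDF _ 1),
      ProbabilityTheory.lintegral_gaussianPDF_eq_one _ (by norm_num), mul_one]
  have hmain : ENNReal.ofReal (m2 ρ1 u) * ∑' h, ENNReal.ofReal (ρ h)
      ≤ ∑' h, ENNReal.ofReal (ρ h) * ENNReal.ofReal ((pr u h - c * pr v h) ^ 2 + c ^ 2) := by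
    rw [hM, hR, ← lintegral_const_mul']
    · refine lintegral_mono (fun s => ?_)
      simp only
      rw [mul_left_comm]
      refine mul_le_mul_right ?_ (φ s)
      have hs1 := h1.summ (s • v)
      have hs2 := h1.summ_sq (s • v) u (c * s)
      rw [← ENNReal.ofReal_tsum_of_nonneg
        (fun h => mul_nonneg (h1.nonneg h) (Real.exp_pos _).le) hs1,
        ← ENNReal.ofReal_tsum_of_nonneg (fun h => mul_nonneg
        (mul_nonneg (h1.nonneg h) (Real.exp_pos _).le) (sq_nonneg _)) hs2,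
        ← ENNReal.ofReal_mul (h1.m2_nonneg u)]
      exact ENNReal.ofReal_le_ofReal (h1.tilt_var (s • v) u (c * s))
    · exact ENNReal.ofReal_ne_top
  rw [hL, ← ENNReal.ofReal_tsum_of_nonneg hρ.nonneg hρ.summ0,
    ← ENNReal.ofReal_mul (h1.m2_nonneg u)] at hmain
  have hpos := hρ.pos
  have hfin : 0 ≤ Zl ρ 0 * (m2 ρ (u - c • v) + c ^ 2) :=
    mul_nonneg (hρ.Zl_pos 0).le (add_nonneg (hρ.m2_nonneg _) (sq_nonneg _))
  have h3 := (ENNReal.ofReal_le_ofReal_iff hfin).mp hmain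
  rw [Zl_zero] at h3
  have h4 : m2 ρ1 u * (∑' h, ρ h) ≤ (m2 ρ (u - c • v) + c ^ 2) * ∑' h, ρ h := by
    linarith [mul_comm (∑' h, ρ h) (m2 ρ (u - c • v) + c ^ 2)]
  exact le_of_mul_le_mul_right h4 hpos

/-! ### Several masses -/

lemma addm_empty {ι : Type*} (ρ : (V → ℤ) → ℝ) (v : ι → V → ℝ) : addm ρ v ∅ = ρ := by
  funext h; simp [addm]

lemma addm_insert {ι : Type*} [DecidableEq ι] (ρ : (V → ℤ) → ℝ) (v : ι → V → ℝ) {i : ι}
    {S : Finset ι} (hi : i ∉ S) :
    addm ρ v (insert i S) = fun h => addm ρ v S h * Real.exp (-(1 / 2) * pr (v i) h ^ 2) := by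
  funext h
  simp only [addm]
  rw [Finset.sum_insert hi, mul_assoc, ← Real.exp_add]
  congr 2; ring

lemma pr_sum {ι : Type*} (S : Finset ι) (c : ι → ℝ) (v : ι → V → ℝ) (h : V → ℤ) :
    pr (∑ i ∈ S, c i • v i) h = ∑ i ∈ S, c i * pr (v i) h := by
  classical
  induction S using Finset.induction_on with
  | empty => simp [pr_zero]
  | insert i S hi ih => rw [Finset.sum_insert hi, Finset.sum_insert hi, pr_add, pr_smul, ih]

/-- **E7, form version.** -/
theorem e7_form {ι : Type*} {ρ : (V → ℤ) → ℝ} (v : ι → V → ℝ) (S : Finset ι)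
    (hW : ∀ T ⊆ S, Wt (addm ρ v T)) (c : ι → ℝ) (u : V → ℝ) :
    m2 (addm ρ v S) u ≤ m2 ρ (u - ∑ i ∈ S, c i • v i) + ∑ i ∈ S, c i ^ 2 := by
  classical
  induction S using Finset.induction_on generalizing u with
  | empty => simp [addm_empty]
  | insert i S hi ih =>
    have h0 : Wt (addm ρ v S) := hW S (Finset.subset_insert _ _)
    have h1 : Wt (addm ρ v (insert i S)) := hW _ (Finset.Subset.refl _)
    rw [addm_insert ρ v hi] at h1 ⊢
    have h2 := e7_one h0 (v i) h1 u (c i)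
    have h3 := ih (fun T hT => hW T (hT.trans (Finset.subset_insert _ _))) (u - c i • v i)
    rw [Finset.sum_insert hi, Finset.sum_insert hi]
    have e : u - c i • v i - ∑ j ∈ S, c j • v j = u - (c i • v i + ∑ j ∈ S, c j • v j) := by
      abel
    rw [e] at h3
    linarith

/-- Real pairing. -/
noncomputable def rp (f g : V → ℝ) : ℝ := ∑ x, f x * g x

/-- **E7, Legendre version**: an upper bound `A` for `Π` survives the removal of masses
(`B` is the mass form that stays, any function will do). -/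
theorem e7_leg {ι : Type*} {ρ : (V → ℤ) → ℝ} (v : ι → V → ℝ) (S : Finset ι)
    (hW : ∀ T ⊆ S, Wt (addm ρ v T)) (A B : (V → ℝ) → ℝ)
    (hA : ∀ f g : V → ℝ, 2 * rp f g - (B g + ∑ i ∈ S, rp (v i) g ^ 2) - A g
      ≤ m2 (addm ρ v S) f) (f g : V → ℝ) :
    2 * rp f g - B g - A g ≤ m2 ρ f := by
  have h1 := hA (f + ∑ i ∈ S, rp (v i) g • v i) g
  have h2 := e7_form v S hW (fun i => rp (v i) g) (f + ∑ i ∈ S, rp (v i) g • v i)
  rw [add_sub_cancel_right] at h2
  have h3 : rp (f + ∑ i ∈ S, rp (v i) g • v i) g = rp f g + ∑ i ∈ S, rp (v i) g ^ 2 := by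
    simp only [rp, Pi.add_apply, Finset.sum_apply, Pi.smul_apply, smul_eq_mul, add_mul,
      Finset.sum_add_distrib, Finset.sum_mul]
    congr 1
    rw [Finset.sum_comm]
    refine Finset.sum_congr rfl (fun i _ => ?_)
    rw [sq, Finset.mul_sum]
    refine Finset.sum_congr rfl (fun x _ => ?_)
    rw [Finset.sum_mul]
    exact Finset.sum_congr rfl (fun y _ => by ring)
  rw [h3] at h1
  linarith

lemma m2_smul (ρ : (V → ℤ) → ℝ) (c : ℝ) (u : V → ℝ) : m2 ρ (c • u) = c ^ 2 * m2 ρ u := by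
  simp only [m2, pr_smul]
  rw [← mul_div_assoc, ← tsum_mul_left]
  congr 1
  exact tsum_congr (fun h => by ring)

/-- The unit mass vectors `√m_x δ_x`. -/
noncomputable def dm [DecidableEq V] (m : V → ℝ) : V → V → ℝ :=
  fun x => Pi.single x (Real.sqrt (m x))

lemma pr_dm [DecidableEq V] (m : V → ℝ) (x : V) (h : V → ℤ) :
    pr (dm m x) h = Real.sqrt (m x) * h x := by
  simp [pr, dm, Pi.single_apply]

lemma addm_dm [DecidableEq V] (ρ : (V → ℤ) → ℝ) {m : V → ℝ} (hm : ∀ x, 0 ≤ m x)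
    (S : Finset V) (h : V → ℤ) :
    addm ρ (dm m) S h = ρ h * Real.exp (-(1 / 2) * ∑ x ∈ S, m x * (h x : ℝ) ^ 2) := by
  simp only [addm, pr_dm, mul_pow]
  congr 3
  exact Finset.sum_congr rfl (fun x _ => by rw [Real.sq_sqrt (hm x)])

/-- **E7, diagonal masses.** -/
theorem e7_diag [DecidableEq V] {ρ : (V → ℤ) → ℝ} {m : V → ℝ}
    (hW : ∀ T : Finset V, Wt (addm ρ (dm m) T)) (c u : V → ℝ) :
    m2 (addm ρ (dm m) univ) u
      ≤ m2 ρ (u - fun x => c x * Real.sqrt (m x)) + ∑ x, c x ^ 2 := by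
  have h := e7_form (dm m) univ (fun T _ => hW T) c u
  have e : (∑ x, c x • dm m x) = fun x => c x * Real.sqrt (m x) := by
    funext y
    simp [dm, Finset.sum_apply, Pi.single_apply]
  rwa [e] at h

/-- **E7, one vector, mass `δ` times the identity**: with `g = m2/|u|²`,
`g₁ (1 + δ g₀) ≤ g₀`, i.e. `1/g₁ - δ ≥ 1/g₀`. -/
theorem e7_scalar [DecidableEq V] {ρ : (V → ℤ) → ℝ} {δ : ℝ} (hδ : 0 ≤ δ)
    (hW : ∀ T : Finset V, Wt (addm ρ (dm fun _ => δ) T)) (u : V → ℝ) (hu : 0 < rp u u) :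
    m2 (addm ρ (dm fun _ => δ) univ) u / rp u u * (1 + δ * (m2 ρ u / rp u u))
      ≤ m2 ρ u / rp u u := by
  have hρ : Wt ρ := by
    have := hW ∅
    rwa [addm_empty] at this
  set g0 := m2 ρ u / rp u u with hg0
  set g1 := m2 (addm ρ (dm fun _ => δ) univ) u / rp u u with hg1
  have hg0n : 0 ≤ g0 := div_nonneg (hρ.m2_nonneg u) hu.le
  set s := Real.sqrt δ * g0 / (1 + δ * g0) with hs
  have h := e7_diag hW (s • u) u
  have e1 : (u - fun x => (s • u) x * Real.sqrt δ) = (1 - s * Real.sqrt δ) • u := by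
    funext x; simp; ring
  have e2 : ∑ x, (s • u) x ^ 2 = s ^ 2 * rp u u := by
    simp only [rp, Finset.mul_sum, Pi.smul_apply, smul_eq_mul]
    exact Finset.sum_congr rfl (fun x _ => by ring)
  rw [e1, m2_smul, e2] at h
  have h2 : g1 ≤ (1 - s * Real.sqrt δ) ^ 2 * g0 + s ^ 2 := by
    rw [hg1, hg0, div_le_iff₀ hu]
    have : ((1 - s * Real.sqrt δ) ^ 2 * (m2 ρ u / rp u u) + s ^ 2) * rp u u
        = (1 - s * Real.sqrt δ) ^ 2 * m2 ρ u + s ^ 2 * rp u u := by
      field_simp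
    rw [this]; exact h
  have hsq : Real.sqrt δ ^ 2 = δ := Real.sq_sqrt hδ
  have hpos : 0 < 1 + δ * g0 := by positivity
  have h3 : (1 - s * Real.sqrt δ) ^ 2 * g0 + s ^ 2 = g0 / (1 + δ * g0) := by
    have e3 : s * Real.sqrt δ = δ * g0 / (1 + δ * g0) := by
      rw [hs, div_mul_eq_mul_div]; congr 1
      calc Real.sqrt δ * g0 * Real.sqrt δ = Real.sqrt δ ^ 2 * g0 := by ring
        _ = _ := by rw [hsq]
    have e4 : s ^ 2 = δ * g0 ^ 2 / (1 + δ * g0) ^ 2 := by
      rw [hs, div_pow, mul_pow, hsq]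
    rw [e3, e4]
    field_simp
    ring
  rw [h3, le_div_iff₀ hpos] at h2
  exact h2

end Vale.Agent.P159.TM.H416
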